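import Vale.Agent.P048.Sat.Z7x17.Db0
import Vale.Agent.P048.Sat.Z7x17.Db1
import Vale.Agent.P048.Sat.Z7x17.Db2

namespace Vale.Agent.P048.Sat.Z7x17

open Vale.Agent.P048.Sat Vale.Agent.P048.Sat.Fast

noncomputable def s1_3 (i sh : Nat) : Nat := Bool.rec (Nat.shiftRight leaf1 sh) (Nat.shiftRight leaf2 sh) (Nat.ble 2 i)
noncomputable def s0_3 (i sh : Nat) : Nat := Bool.rec (Nat.shiftRight leaf0 sh) (s1_3 i sh) (Nat.ble 1 i)
noncomputable def s3_5 (i sh : Nat) : Nat := Bool.rec (Nat.shiftRight leaf3 sh) (Nat.shiftRight leaf4 sh) (Nat.ble 4 i)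
noncomputable def s6_8 (i sh : Nat) : Nat := Bool.rec (Nat.shiftRight leaf6 sh) (Nat.shiftRight leaf7 sh) (Nat.ble 7 i)
noncomputable def s5_8 (i sh : Nat) : Nat := Bool.rec (Nat.shiftRight leaf5 sh) (s6_8 i sh) (Nat.ble 6 i)
noncomputable def s3_8 (i sh : Nat) : Nat := Bool.rec (s3_5 i sh) (s5_8 i sh) (Nat.ble 5 i)
noncomputable def s8_10 (i sh : Nat) : Nat := Bool.rec (Nat.shiftRight leaf8 sh) (Nat.shiftRight leaf9 sh) (Nat.ble 9 i)
noncomputable def s11_13 (i sh : Nat) : Nat := Bool.rec (Nat.shiftRight leaf11 sh) (Nat.shiftRight leaf12 sh) (Nat.ble 12 i)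
noncomputable def s10_13 (i sh : Nat) : Nat := Bool.rec (Nat.shiftRight leaf10 sh) (s11_13 i sh) (Nat.ble 11 i)
noncomputable def s8_13 (i sh : Nat) : Nat := Bool.rec (s8_10 i sh) (s10_13 i sh) (Nat.ble 10 i)
noncomputable def s14_16 (i sh : Nat) : Nat := Bool.rec (Nat.shiftRight leaf14 sh) (Nat.shiftRight leaf15 sh) (Nat.ble 15 i)
noncomputable def s13_16 (i sh : Nat) : Nat := Bool.rec (Nat.shiftRight leaf13 sh) (s14_16 i sh) (Nat.ble 14 i)
noncomputable def s16_18 (i sh : Nat) : Nat := Bool.rec (Nat.shiftRight leaf16 sh) (Nat.shiftRight leaf17 sh) (Nat.ble 17 i)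
noncomputable def s19_21 (i sh : Nat) : Nat := Bool.rec (Nat.shiftRight leaf19 sh) (Nat.shiftRight leaf20 sh) (Nat.ble 20 i)
noncomputable def s18_21 (i sh : Nat) : Nat := Bool.rec (Nat.shiftRight leaf18 sh) (s19_21 i sh) (Nat.ble 19 i)
noncomputable def s16_21 (i sh : Nat) : Nat := Bool.rec (s16_18 i sh) (s18_21 i sh) (Nat.ble 18 i)
noncomputable def s13_21 (i sh : Nat) : Nat := Bool.rec (s13_16 i sh) (s16_21 i sh) (Nat.ble 16 i)
noncomputable def s8_21 (i sh : Nat) : Nat := Bool.rec (s8_13 i sh) (s13_21 i sh) (Nat.ble 13 i)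
noncomputable def s3_21 (i sh : Nat) : Nat := Bool.rec (s3_8 i sh) (s8_21 i sh) (Nat.ble 8 i)
noncomputable def s0_21 (i sh : Nat) : Nat := Bool.rec (s0_3 i sh) (s3_21 i sh) (Nat.ble 3 i)
noncomputable def s22_24 (i sh : Nat) : Nat := Bool.rec (Nat.shiftRight leaf22 sh) (Nat.shiftRight leaf23 sh) (Nat.ble 23 i)
noncomputable def s21_24 (i sh : Nat) : Nat := Bool.rec (Nat.shiftRight leaf21 sh) (s22_24 i sh) (Nat.ble 22 i)
noncomputable def s24_26 (i sh : Nat) : Nat := Bool.rec (Nat.shiftRight leaf24 sh) (Nat.shiftRight leaf25 sh) (Nat.ble 25 i)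
noncomputable def s27_29 (i sh : Nat) : Nat := Bool.rec (Nat.shiftRight leaf27 sh) (Nat.shiftRight leaf28 sh) (Nat.ble 28 i)
noncomputable def s26_29 (i sh : Nat) : Nat := Bool.rec (Nat.shiftRight leaf26 sh) (s27_29 i sh) (Nat.ble 27 i)
noncomputable def s24_29 (i sh : Nat) : Nat := Bool.rec (s24_26 i sh) (s26_29 i sh) (Nat.ble 26 i)
noncomputable def s21_29 (i sh : Nat) : Nat := Bool.rec (s21_24 i sh) (s24_29 i sh) (Nat.ble 24 i)
noncomputable def s30_32 (i sh : Nat) : Nat := Bool.rec (Nat.shiftRight leaf30 sh) (Nat.shiftRight leaf31 sh) (Nat.ble 31 i)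
noncomputable def s29_32 (i sh : Nat) : Nat := Bool.rec (Nat.shiftRight leaf29 sh) (s30_32 i sh) (Nat.ble 30 i)
noncomputable def s32_34 (i sh : Nat) : Nat := Bool.rec (Nat.shiftRight leaf32 sh) (Nat.shiftRight leaf33 sh) (Nat.ble 33 i)
noncomputable def s34_36 (i sh : Nat) : Nat := Bool.rec (Nat.shiftRight leaf34 sh) (Nat.shiftRight leaf35 sh) (Nat.ble 35 i)
noncomputable def s32_36 (i sh : Nat) : Nat := Bool.rec (s32_34 i sh) (s34_36 i sh) (Nat.ble 34 i)
noncomputable def s29_36 (i sh : Nat) : Nat := Bool.rec (s29_32 i sh) (s32_36 i sh) (Nat.ble 32 i)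
noncomputable def s36_38 (i sh : Nat) : Nat := Bool.rec (Nat.shiftRight leaf36 sh) (Nat.shiftRight leaf37 sh) (Nat.ble 37 i)
noncomputable def s39_41 (i sh : Nat) : Nat := Bool.rec (Nat.shiftRight leaf39 sh) (Nat.shiftRight leaf40 sh) (Nat.ble 40 i)
noncomputable def s38_41 (i sh : Nat) : Nat := Bool.rec (Nat.shiftRight leaf38 sh) (s39_41 i sh) (Nat.ble 39 i)
noncomputable def s36_41 (i sh : Nat) : Nat := Bool.rec (s36_38 i sh) (s38_41 i sh) (Nat.ble 38 i)
noncomputable def s42_44 (i sh : Nat) : Nat := Bool.rec (Nat.shiftRight leaf42 sh) (Nat.shiftRight leaf43 sh) (Nat.ble 43 i)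
noncomputable def s41_44 (i sh : Nat) : Nat := Bool.rec (Nat.shiftRight leaf41 sh) (s42_44 i sh) (Nat.ble 42 i)
noncomputable def s44_46 (i sh : Nat) : Nat := Bool.rec (Nat.shiftRight leaf44 sh) (Nat.shiftRight leaf45 sh) (Nat.ble 45 i)
noncomputable def s46_48 (i sh : Nat) : Nat := Bool.rec (Nat.shiftRight leaf46 sh) (Nat.shiftRight leaf47 sh) (Nat.ble 47 i)
noncomputable def s44_48 (i sh : Nat) : Nat := Bool.rec (s44_46 i sh) (s46_48 i sh) (Nat.ble 46 i)
noncomputable def s41_48 (i sh : Nat) : Nat := Bool.rec (s41_44 i sh) (s44_48 i sh) (Nat.ble 44 i)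
noncomputable def s36_48 (i sh : Nat) : Nat := Bool.rec (s36_41 i sh) (s41_48 i sh) (Nat.ble 41 i)
noncomputable def s29_48 (i sh : Nat) : Nat := Bool.rec (s29_36 i sh) (s36_48 i sh) (Nat.ble 36 i)
noncomputable def s21_48 (i sh : Nat) : Nat := Bool.rec (s21_29 i sh) (s29_48 i sh) (Nat.ble 29 i)
noncomputable def s48_50 (i sh : Nat) : Nat := Bool.rec (Nat.shiftRight leaf48 sh) (Nat.shiftRight leaf49 sh) (Nat.ble 49 i)
noncomputable def s51_53 (i sh : Nat) : Nat := Bool.rec (Nat.shiftRight leaf51 sh) (Nat.shiftRight leaf52 sh) (Nat.ble 52 i)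
noncomputable def s50_53 (i sh : Nat) : Nat := Bool.rec (Nat.shiftRight leaf50 sh) (s51_53 i sh) (Nat.ble 51 i)
noncomputable def s48_53 (i sh : Nat) : Nat := Bool.rec (s48_50 i sh) (s50_53 i sh) (Nat.ble 50 i)
noncomputable def s53_55 (i sh : Nat) : Nat := Bool.rec (Nat.shiftRight leaf53 sh) (Nat.shiftRight leaf54 sh) (Nat.ble 54 i)
noncomputable def s55_57 (i sh : Nat) : Nat := Bool.rec (Nat.shiftRight leaf55 sh) (Nat.shiftRight leaf56 sh) (Nat.ble 56 i)
noncomputable def s53_57 (i sh : Nat) : Nat := Bool.rec (s53_55 i sh) (s55_57 i sh) (Nat.ble 55 i)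
noncomputable def s58_60 (i sh : Nat) : Nat := Bool.rec (Nat.shiftRight leaf58 sh) (Nat.shiftRight leaf59 sh) (Nat.ble 59 i)
noncomputable def s57_60 (i sh : Nat) : Nat := Bool.rec (Nat.shiftRight leaf57 sh) (s58_60 i sh) (Nat.ble 58 i)
noncomputable def s61_63 (i sh : Nat) : Nat := Bool.rec (Nat.shiftRight leaf61 sh) (Nat.shiftRight leaf62 sh) (Nat.ble 62 i)
noncomputable def s60_63 (i sh : Nat) : Nat := Bool.rec (Nat.shiftRight leaf60 sh) (s61_63 i sh) (Nat.ble 61 i)
noncomputable def s57_63 (i sh : Nat) : Nat := Bool.rec (s57_60 i sh) (s60_63 i sh) (Nat.ble 60 i)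
noncomputable def s53_63 (i sh : Nat) : Nat := Bool.rec (s53_57 i sh) (s57_63 i sh) (Nat.ble 57 i)
noncomputable def s48_63 (i sh : Nat) : Nat := Bool.rec (s48_53 i sh) (s53_63 i sh) (Nat.ble 53 i)
noncomputable def s63_65 (i sh : Nat) : Nat := Bool.rec (Nat.shiftRight leaf63 sh) (Nat.shiftRight leaf64 sh) (Nat.ble 64 i)
noncomputable def s65_67 (i sh : Nat) : Nat := Bool.rec (Nat.shiftRight leaf65 sh) (Nat.shiftRight leaf66 sh) (Nat.ble 66 i)
noncomputable def s67_69 (i sh : Nat) : Nat := Bool.rec (Nat.shiftRight leaf67 sh) (Nat.shiftRight leaf68 sh) (Nat.ble 68 i)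
noncomputable def s65_69 (i sh : Nat) : Nat := Bool.rec (s65_67 i sh) (s67_69 i sh) (Nat.ble 67 i)
noncomputable def s63_69 (i sh : Nat) : Nat := Bool.rec (s63_65 i sh) (s65_69 i sh) (Nat.ble 65 i)
noncomputable def s69_71 (i sh : Nat) : Nat := Bool.rec (Nat.shiftRight leaf69 sh) (Nat.shiftRight leaf70 sh) (Nat.ble 70 i)
noncomputable def s71_73 (i sh : Nat) : Nat := Bool.rec (Nat.shiftRight leaf71 sh) (Nat.shiftRight leaf72 sh) (Nat.ble 72 i)
noncomputable def s69_73 (i sh : Nat) : Nat := Bool.rec (s69_71 i sh) (s71_73 i sh) (Nat.ble 71 i)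
noncomputable def s73_75 (i sh : Nat) : Nat := Bool.rec (Nat.shiftRight leaf73 sh) (Nat.shiftRight leaf74 sh) (Nat.ble 74 i)
noncomputable def s76_78 (i sh : Nat) : Nat := Bool.rec (Nat.shiftRight leaf76 sh) (Nat.shiftRight leaf77 sh) (Nat.ble 77 i)
noncomputable def s75_78 (i sh : Nat) : Nat := Bool.rec (Nat.shiftRight leaf75 sh) (s76_78 i sh) (Nat.ble 76 i)
noncomputable def s73_78 (i sh : Nat) : Nat := Bool.rec (s73_75 i sh) (s75_78 i sh) (Nat.ble 75 i)
noncomputable def s69_78 (i sh : Nat) : Nat := Bool.rec (s69_73 i sh) (s73_78 i sh) (Nat.ble 73 i)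
noncomputable def s63_78 (i sh : Nat) : Nat := Bool.rec (s63_69 i sh) (s69_78 i sh) (Nat.ble 69 i)
noncomputable def s78_80 (i sh : Nat) : Nat := Bool.rec (Nat.shiftRight leaf78 sh) (Nat.shiftRight leaf79 sh) (Nat.ble 79 i)
noncomputable def s80_82 (i sh : Nat) : Nat := Bool.rec (Nat.shiftRight leaf80 sh) (Nat.shiftRight leaf81 sh) (Nat.ble 81 i)
noncomputable def s78_82 (i sh : Nat) : Nat := Bool.rec (s78_80 i sh) (s80_82 i sh) (Nat.ble 80 i)
noncomputable def s82_84 (i sh : Nat) : Nat := Bool.rec (Nat.shiftRight leaf82 sh) (Nat.shiftRight leaf83 sh) (Nat.ble 83 i)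
noncomputable def s85_87 (i sh : Nat) : Nat := Bool.rec (Nat.shiftRight leaf85 sh) (Nat.shiftRight leaf86 sh) (Nat.ble 86 i)
noncomputable def s84_87 (i sh : Nat) : Nat := Bool.rec (Nat.shiftRight leaf84 sh) (s85_87 i sh) (Nat.ble 85 i)
noncomputable def s82_87 (i sh : Nat) : Nat := Bool.rec (s82_84 i sh) (s84_87 i sh) (Nat.ble 84 i)
noncomputable def s78_87 (i sh : Nat) : Nat := Bool.rec (s78_82 i sh) (s82_87 i sh) (Nat.ble 82 i)
noncomputable def s87_89 (i sh : Nat) : Nat := Bool.rec (Nat.shiftRight leaf87 sh) (Nat.shiftRight leaf88 sh) (Nat.ble 88 i)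
noncomputable def s89_91 (i sh : Nat) : Nat := Bool.rec (Nat.shiftRight leaf89 sh) (Nat.shiftRight leaf90 sh) (Nat.ble 90 i)
noncomputable def s87_91 (i sh : Nat) : Nat := Bool.rec (s87_89 i sh) (s89_91 i sh) (Nat.ble 89 i)
noncomputable def s91_93 (i sh : Nat) : Nat := Bool.rec (Nat.shiftRight leaf91 sh) (Nat.shiftRight leaf92 sh) (Nat.ble 92 i)
noncomputable def s94_96 (i sh : Nat) : Nat := Bool.rec (Nat.shiftRight leaf94 sh) (Nat.shiftRight leaf95 sh) (Nat.ble 95 i)
noncomputable def s93_96 (i sh : Nat) : Nat := Bool.rec (Nat.shiftRight leaf93 sh) (s94_96 i sh) (Nat.ble 94 i)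
noncomputable def s91_96 (i sh : Nat) : Nat := Bool.rec (s91_93 i sh) (s93_96 i sh) (Nat.ble 93 i)
noncomputable def s87_96 (i sh : Nat) : Nat := Bool.rec (s87_91 i sh) (s91_96 i sh) (Nat.ble 91 i)
noncomputable def s78_96 (i sh : Nat) : Nat := Bool.rec (s78_87 i sh) (s87_96 i sh) (Nat.ble 87 i)
noncomputable def s63_96 (i sh : Nat) : Nat := Bool.rec (s63_78 i sh) (s78_96 i sh) (Nat.ble 78 i)
noncomputable def s96_98 (i sh : Nat) : Nat := Bool.rec (Nat.shiftRight leaf96 sh) (Nat.shiftRight leaf97 sh) (Nat.ble 97 i)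
noncomputable def s98_100 (i sh : Nat) : Nat := Bool.rec (Nat.shiftRight leaf98 sh) (Nat.shiftRight leaf99 sh) (Nat.ble 99 i)
noncomputable def s96_100 (i sh : Nat) : Nat := Bool.rec (s96_98 i sh) (s98_100 i sh) (Nat.ble 98 i)
noncomputable def s100_102 (i sh : Nat) : Nat := Bool.rec (Nat.shiftRight leaf100 sh) (Nat.shiftRight leaf101 sh) (Nat.ble 101 i)
noncomputable def s103_105 (i sh : Nat) : Nat := Bool.rec (Nat.shiftRight leaf103 sh) (Nat.shiftRight leaf104 sh) (Nat.ble 104 i)
noncomputable def s102_105 (i sh : Nat) : Nat := Bool.rec (Nat.shiftRight leaf102 sh) (s103_105 i sh) (Nat.ble 103 i)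
noncomputable def s100_105 (i sh : Nat) : Nat := Bool.rec (s100_102 i sh) (s102_105 i sh) (Nat.ble 102 i)
noncomputable def s96_105 (i sh : Nat) : Nat := Bool.rec (s96_100 i sh) (s100_105 i sh) (Nat.ble 100 i)
noncomputable def s105_107 (i sh : Nat) : Nat := Bool.rec (Nat.shiftRight leaf105 sh) (Nat.shiftRight leaf106 sh) (Nat.ble 106 i)
noncomputable def s108_110 (i sh : Nat) : Nat := Bool.rec (Nat.shiftRight leaf108 sh) (Nat.shiftRight leaf109 sh) (Nat.ble 109 i)
noncomputable def s107_110 (i sh : Nat) : Nat := Bool.rec (Nat.shiftRight leaf107 sh) (s108_110 i sh) (Nat.ble 108 i)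
noncomputable def s105_110 (i sh : Nat) : Nat := Bool.rec (s105_107 i sh) (s107_110 i sh) (Nat.ble 107 i)
noncomputable def s110_112 (i sh : Nat) : Nat := Bool.rec (Nat.shiftRight leaf110 sh) (Nat.shiftRight leaf111 sh) (Nat.ble 111 i)
noncomputable def s113_115 (i sh : Nat) : Nat := Bool.rec (Nat.shiftRight leaf113 sh) (Nat.shiftRight leaf114 sh) (Nat.ble 114 i)
noncomputable def s112_115 (i sh : Nat) : Nat := Bool.rec (Nat.shiftRight leaf112 sh) (s113_115 i sh) (Nat.ble 113 i)
noncomputable def s110_115 (i sh : Nat) : Nat := Bool.rec (s110_112 i sh) (s112_115 i sh) (Nat.ble 112 i)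
noncomputable def s105_115 (i sh : Nat) : Nat := Bool.rec (s105_110 i sh) (s110_115 i sh) (Nat.ble 110 i)
noncomputable def s96_115 (i sh : Nat) : Nat := Bool.rec (s96_105 i sh) (s105_115 i sh) (Nat.ble 105 i)
noncomputable def s115_117 (i sh : Nat) : Nat := Bool.rec (Nat.shiftRight leaf115 sh) (Nat.shiftRight leaf116 sh) (Nat.ble 116 i)
noncomputable def s115_118 (i sh : Nat) : Nat := Bool.rec (s115_117 i sh) (Nat.shiftRight leaf117 sh) (Nat.ble 117 i)
noncomputable def s96_118 (i sh : Nat) : Nat := Bool.rec (s96_115 i sh) (s115_118 i sh) (Nat.ble 115 i)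
noncomputable def s63_118 (i sh : Nat) : Nat := Bool.rec (s63_96 i sh) (s96_118 i sh) (Nat.ble 96 i)
noncomputable def s48_118 (i sh : Nat) : Nat := Bool.rec (s48_63 i sh) (s63_118 i sh) (Nat.ble 63 i)
noncomputable def s119_121 (i sh : Nat) : Nat := Bool.rec (Nat.shiftRight leaf119 sh) (Nat.shiftRight leaf120 sh) (Nat.ble 120 i)
noncomputable def s121_123 (i sh : Nat) : Nat := Bool.rec (Nat.shiftRight leaf121 sh) (Nat.shiftRight leaf122 sh) (Nat.ble 122 i)
noncomputable def s119_123 (i sh : Nat) : Nat := Bool.rec (s119_121 i sh) (s121_123 i sh) (Nat.ble 121 i)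
noncomputable def s119_124 (i sh : Nat) : Nat := Bool.rec (s119_123 i sh) (Nat.shiftRight leaf123 sh) (Nat.ble 123 i)
noncomputable def s118_124 (i sh : Nat) : Nat := Bool.rec (Nat.shiftRight leaf118 sh) (s119_124 i sh) (Nat.ble 119 i)
noncomputable def s124_126 (i sh : Nat) : Nat := Bool.rec (Nat.shiftRight leaf124 sh) (Nat.shiftRight leaf125 sh) (Nat.ble 125 i)
noncomputable def s127_129 (i sh : Nat) : Nat := Bool.rec (Nat.shiftRight leaf127 sh) (Nat.shiftRight leaf128 sh) (Nat.ble 128 i)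
noncomputable def s126_129 (i sh : Nat) : Nat := Bool.rec (Nat.shiftRight leaf126 sh) (s127_129 i sh) (Nat.ble 127 i)
noncomputable def s130_132 (i sh : Nat) : Nat := Bool.rec (Nat.shiftRight leaf130 sh) (Nat.shiftRight leaf131 sh) (Nat.ble 131 i)
noncomputable def s129_132 (i sh : Nat) : Nat := Bool.rec (Nat.shiftRight leaf129 sh) (s130_132 i sh) (Nat.ble 130 i)
noncomputable def s132_134 (i sh : Nat) : Nat := Bool.rec (Nat.shiftRight leaf132 sh) (Nat.shiftRight leaf133 sh) (Nat.ble 133 i)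
noncomputable def s134_136 (i sh : Nat) : Nat := Bool.rec (Nat.shiftRight leaf134 sh) (Nat.shiftRight leaf135 sh) (Nat.ble 135 i)
noncomputable def s132_136 (i sh : Nat) : Nat := Bool.rec (s132_134 i sh) (s134_136 i sh) (Nat.ble 134 i)
noncomputable def s129_136 (i sh : Nat) : Nat := Bool.rec (s129_132 i sh) (s132_136 i sh) (Nat.ble 132 i)
noncomputable def s136_138 (i sh : Nat) : Nat := Bool.rec (Nat.shiftRight leaf136 sh) (Nat.shiftRight leaf137 sh) (Nat.ble 137 i)
noncomputable def s138_140 (i sh : Nat) : Nat := Bool.rec (Nat.shiftRight leaf138 sh) (Nat.shiftRight leaf139 sh) (Nat.ble 139 i)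
noncomputable def s136_140 (i sh : Nat) : Nat := Bool.rec (s136_138 i sh) (s138_140 i sh) (Nat.ble 138 i)
noncomputable def s136_141 (i sh : Nat) : Nat := Bool.rec (s136_140 i sh) (Nat.shiftRight leaf140 sh) (Nat.ble 140 i)
noncomputable def s129_141 (i sh : Nat) : Nat := Bool.rec (s129_136 i sh) (s136_141 i sh) (Nat.ble 136 i)
noncomputable def s126_141 (i sh : Nat) : Nat := Bool.rec (s126_129 i sh) (s129_141 i sh) (Nat.ble 129 i)
noncomputable def s124_141 (i sh : Nat) : Nat := Bool.rec (s124_126 i sh) (s126_141 i sh) (Nat.ble 126 i)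
noncomputable def s118_141 (i sh : Nat) : Nat := Bool.rec (s118_124 i sh) (s124_141 i sh) (Nat.ble 124 i)
noncomputable def s48_141 (i sh : Nat) : Nat := Bool.rec (s48_118 i sh) (s118_141 i sh) (Nat.ble 118 i)
noncomputable def s141_143 (i sh : Nat) : Nat := Bool.rec (Nat.shiftRight leaf141 sh) (Nat.shiftRight leaf142 sh) (Nat.ble 142 i)
noncomputable def s141_144 (i sh : Nat) : Nat := Bool.rec (s141_143 i sh) (Nat.shiftRight leaf143 sh) (Nat.ble 143 i)
noncomputable def s144_146 (i sh : Nat) : Nat := Bool.rec (Nat.shiftRight leaf144 sh) (Nat.shiftRight leaf145 sh) (Nat.ble 145 i)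
noncomputable def s144_147 (i sh : Nat) : Nat := Bool.rec (s144_146 i sh) (Nat.shiftRight leaf146 sh) (Nat.ble 146 i)
noncomputable def s141_147 (i sh : Nat) : Nat := Bool.rec (s141_144 i sh) (s144_147 i sh) (Nat.ble 144 i)
noncomputable def s147_149 (i sh : Nat) : Nat := Bool.rec (Nat.shiftRight leaf147 sh) (Nat.shiftRight leaf148 sh) (Nat.ble 148 i)
noncomputable def s149_151 (i sh : Nat) : Nat := Bool.rec (Nat.shiftRight leaf149 sh) (Nat.shiftRight leaf150 sh) (Nat.ble 150 i)
noncomputable def s149_152 (i sh : Nat) : Nat := Bool.rec (s149_151 i sh) (Nat.shiftRight leaf151 sh) (Nat.ble 151 i)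
noncomputable def s147_152 (i sh : Nat) : Nat := Bool.rec (s147_149 i sh) (s149_152 i sh) (Nat.ble 149 i)
noncomputable def s152_154 (i sh : Nat) : Nat := Bool.rec (Nat.shiftRight leaf152 sh) (Nat.shiftRight leaf153 sh) (Nat.ble 153 i)
noncomputable def s154_156 (i sh : Nat) : Nat := Bool.rec (Nat.shiftRight leaf154 sh) (Nat.shiftRight leaf155 sh) (Nat.ble 155 i)
noncomputable def s152_156 (i sh : Nat) : Nat := Bool.rec (s152_154 i sh) (s154_156 i sh) (Nat.ble 154 i)
noncomputable def s156_158 (i sh : Nat) : Nat := Bool.rec (Nat.shiftRight leaf156 sh) (Nat.shiftRight leaf157 sh) (Nat.ble 157 i)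
noncomputable def s152_158 (i sh : Nat) : Nat := Bool.rec (s152_156 i sh) (s156_158 i sh) (Nat.ble 156 i)
noncomputable def s147_158 (i sh : Nat) : Nat := Bool.rec (s147_152 i sh) (s152_158 i sh) (Nat.ble 152 i)
noncomputable def s141_158 (i sh : Nat) : Nat := Bool.rec (s141_147 i sh) (s147_158 i sh) (Nat.ble 147 i)
noncomputable def s158_160 (i sh : Nat) : Nat := Bool.rec (Nat.shiftRight leaf158 sh) (Nat.shiftRight leaf159 sh) (Nat.ble 159 i)
noncomputable def s160_162 (i sh : Nat) : Nat := Bool.rec (Nat.shiftRight leaf160 sh) (Nat.shiftRight leaf161 sh) (Nat.ble 161 i)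
noncomputable def s160_163 (i sh : Nat) : Nat := Bool.rec (s160_162 i sh) (Nat.shiftRight leaf162 sh) (Nat.ble 162 i)
noncomputable def s158_163 (i sh : Nat) : Nat := Bool.rec (s158_160 i sh) (s160_163 i sh) (Nat.ble 160 i)
noncomputable def s163_165 (i sh : Nat) : Nat := Bool.rec (Nat.shiftRight leaf163 sh) (Nat.shiftRight leaf164 sh) (Nat.ble 164 i)
noncomputable def s158_165 (i sh : Nat) : Nat := Bool.rec (s158_163 i sh) (s163_165 i sh) (Nat.ble 163 i)
noncomputable def s165_167 (i sh : Nat) : Nat := Bool.rec (Nat.shiftRight leaf165 sh) (Nat.shiftRight leaf166 sh) (Nat.ble 166 i)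
noncomputable def s158_167 (i sh : Nat) : Nat := Bool.rec (s158_165 i sh) (s165_167 i sh) (Nat.ble 165 i)
noncomputable def s141_167 (i sh : Nat) : Nat := Bool.rec (s141_158 i sh) (s158_167 i sh) (Nat.ble 158 i)
noncomputable def s141_168 (i sh : Nat) : Nat := Bool.rec (s141_167 i sh) (Nat.shiftRight leaf167 sh) (Nat.ble 167 i)
noncomputable def s168_170 (i sh : Nat) : Nat := Bool.rec (Nat.shiftRight leaf168 sh) (Nat.shiftRight leaf169 sh) (Nat.ble 169 i)
noncomputable def s170_172 (i sh : Nat) : Nat := Bool.rec (Nat.shiftRight leaf170 sh) (Nat.shiftRight leaf171 sh) (Nat.ble 171 i)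
noncomputable def s172_174 (i sh : Nat) : Nat := Bool.rec (Nat.shiftRight leaf172 sh) (Nat.shiftRight leaf173 sh) (Nat.ble 173 i)
noncomputable def s170_174 (i sh : Nat) : Nat := Bool.rec (s170_172 i sh) (s172_174 i sh) (Nat.ble 172 i)
noncomputable def s168_174 (i sh : Nat) : Nat := Bool.rec (s168_170 i sh) (s170_174 i sh) (Nat.ble 170 i)
noncomputable def s141_174 (i sh : Nat) : Nat := Bool.rec (s141_168 i sh) (s168_174 i sh) (Nat.ble 168 i)
noncomputable def s48_174 (i sh : Nat) : Nat := Bool.rec (s48_141 i sh) (s141_174 i sh) (Nat.ble 141 i)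
noncomputable def s21_174 (i sh : Nat) : Nat := Bool.rec (s21_48 i sh) (s48_174 i sh) (Nat.ble 48 i)
noncomputable def s175_177 (i sh : Nat) : Nat := Bool.rec (Nat.shiftRight leaf175 sh) (Nat.shiftRight leaf176 sh) (Nat.ble 176 i)
noncomputable def s174_177 (i sh : Nat) : Nat := Bool.rec (Nat.shiftRight leaf174 sh) (s175_177 i sh) (Nat.ble 175 i)
noncomputable def s179_181 (i sh : Nat) : Nat := Bool.rec (Nat.shiftRight leaf179 sh) (Nat.shiftRight leaf180 sh) (Nat.ble 180 i)
noncomputable def s178_181 (i sh : Nat) : Nat := Bool.rec (Nat.shiftRight leaf178 sh) (s179_181 i sh) (Nat.ble 179 i)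
noncomputable def s177_181 (i sh : Nat) : Nat := Bool.rec (Nat.shiftRight leaf177 sh) (s178_181 i sh) (Nat.ble 178 i)
noncomputable def s174_181 (i sh : Nat) : Nat := Bool.rec (s174_177 i sh) (s177_181 i sh) (Nat.ble 177 i)
noncomputable def s181_183 (i sh : Nat) : Nat := Bool.rec (Nat.shiftRight leaf181 sh) (Nat.shiftRight leaf182 sh) (Nat.ble 182 i)
noncomputable def s183_185 (i sh : Nat) : Nat := Bool.rec (Nat.shiftRight leaf183 sh) (Nat.shiftRight leaf184 sh) (Nat.ble 184 i)
noncomputable def s185_187 (i sh : Nat) : Nat := Bool.rec (Nat.shiftRight leaf185 sh) (Nat.shiftRight leaf186 sh) (Nat.ble 186 i)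
noncomputable def s183_187 (i sh : Nat) : Nat := Bool.rec (s183_185 i sh) (s185_187 i sh) (Nat.ble 185 i)
noncomputable def s181_187 (i sh : Nat) : Nat := Bool.rec (s181_183 i sh) (s183_187 i sh) (Nat.ble 183 i)
noncomputable def s187_189 (i sh : Nat) : Nat := Bool.rec (Nat.shiftRight leaf187 sh) (Nat.shiftRight leaf188 sh) (Nat.ble 188 i)
noncomputable def s189_191 (i sh : Nat) : Nat := Bool.rec (Nat.shiftRight leaf189 sh) (Nat.shiftRight leaf190 sh) (Nat.ble 190 i)
noncomputable def s187_191 (i sh : Nat) : Nat := Bool.rec (s187_189 i sh) (s189_191 i sh) (Nat.ble 189 i)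
noncomputable def s181_191 (i sh : Nat) : Nat := Bool.rec (s181_187 i sh) (s187_191 i sh) (Nat.ble 187 i)
noncomputable def s174_191 (i sh : Nat) : Nat := Bool.rec (s174_181 i sh) (s181_191 i sh) (Nat.ble 181 i)
noncomputable def s192_194 (i sh : Nat) : Nat := Bool.rec (Nat.shiftRight leaf192 sh) (Nat.shiftRight leaf193 sh) (Nat.ble 193 i)
noncomputable def s191_194 (i sh : Nat) : Nat := Bool.rec (Nat.shiftRight leaf191 sh) (s192_194 i sh) (Nat.ble 192 i)
noncomputable def s194_196 (i sh : Nat) : Nat := Bool.rec (Nat.shiftRight leaf194 sh) (Nat.shiftRight leaf195 sh) (Nat.ble 195 i)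
noncomputable def s194_197 (i sh : Nat) : Nat := Bool.rec (s194_196 i sh) (Nat.shiftRight leaf196 sh) (Nat.ble 196 i)
noncomputable def s197_199 (i sh : Nat) : Nat := Bool.rec (Nat.shiftRight leaf197 sh) (Nat.shiftRight leaf198 sh) (Nat.ble 198 i)
noncomputable def s194_199 (i sh : Nat) : Nat := Bool.rec (s194_197 i sh) (s197_199 i sh) (Nat.ble 197 i)
noncomputable def s191_199 (i sh : Nat) : Nat := Bool.rec (s191_194 i sh) (s194_199 i sh) (Nat.ble 194 i)
noncomputable def s191_200 (i sh : Nat) : Nat := Bool.rec (s191_199 i sh) (Nat.shiftRight leaf199 sh) (Nat.ble 199 i)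
noncomputable def s174_200 (i sh : Nat) : Nat := Bool.rec (s174_191 i sh) (s191_200 i sh) (Nat.ble 191 i)
noncomputable def s174_201 (i sh : Nat) : Nat := Bool.rec (s174_200 i sh) (Nat.shiftRight leaf200 sh) (Nat.ble 200 i)
noncomputable def s202_204 (i sh : Nat) : Nat := Bool.rec (Nat.shiftRight leaf202 sh) (Nat.shiftRight leaf203 sh) (Nat.ble 203 i)
noncomputable def s201_204 (i sh : Nat) : Nat := Bool.rec (Nat.shiftRight leaf201 sh) (s202_204 i sh) (Nat.ble 202 i)
noncomputable def s174_204 (i sh : Nat) : Nat := Bool.rec (s174_201 i sh) (s201_204 i sh) (Nat.ble 201 i)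
noncomputable def s21_204 (i sh : Nat) : Nat := Bool.rec (s21_174 i sh) (s174_204 i sh) (Nat.ble 174 i)
noncomputable def s206_208 (i sh : Nat) : Nat := Bool.rec (Nat.shiftRight leaf206 sh) (Nat.shiftRight leaf207 sh) (Nat.ble 207 i)
noncomputable def s208_210 (i sh : Nat) : Nat := Bool.rec (Nat.shiftRight leaf208 sh) (Nat.shiftRight leaf209 sh) (Nat.ble 209 i)
noncomputable def s206_210 (i sh : Nat) : Nat := Bool.rec (s206_208 i sh) (s208_210 i sh) (Nat.ble 208 i)
noncomputable def s211_213 (i sh : Nat) : Nat := Bool.rec (Nat.shiftRight leaf211 sh) (Nat.shiftRight leaf212 sh) (Nat.ble 212 i)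
noncomputable def s210_213 (i sh : Nat) : Nat := Bool.rec (Nat.shiftRight leaf210 sh) (s211_213 i sh) (Nat.ble 211 i)
noncomputable def s206_213 (i sh : Nat) : Nat := Bool.rec (s206_210 i sh) (s210_213 i sh) (Nat.ble 210 i)
noncomputable def s205_213 (i sh : Nat) : Nat := Bool.rec (Nat.shiftRight leaf205 sh) (s206_213 i sh) (Nat.ble 206 i)
noncomputable def s204_213 (i sh : Nat) : Nat := Bool.rec (Nat.shiftRight leaf204 sh) (s205_213 i sh) (Nat.ble 205 i)
noncomputable def s214_216 (i sh : Nat) : Nat := Bool.rec (Nat.shiftRight leaf214 sh) (Nat.shiftRight leaf215 sh) (Nat.ble 215 i)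
noncomputable def s213_216 (i sh : Nat) : Nat := Bool.rec (Nat.shiftRight leaf213 sh) (s214_216 i sh) (Nat.ble 214 i)
noncomputable def s216_218 (i sh : Nat) : Nat := Bool.rec (Nat.shiftRight leaf216 sh) (Nat.shiftRight leaf217 sh) (Nat.ble 217 i)
noncomputable def s213_218 (i sh : Nat) : Nat := Bool.rec (s213_216 i sh) (s216_218 i sh) (Nat.ble 216 i)
noncomputable def s218_220 (i sh : Nat) : Nat := Bool.rec (Nat.shiftRight leaf218 sh) (Nat.shiftRight leaf219 sh) (Nat.ble 219 i)
noncomputable def s220_222 (i sh : Nat) : Nat := Bool.rec (Nat.shiftRight leaf220 sh) (Nat.shiftRight leaf221 sh) (Nat.ble 221 i)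
noncomputable def s218_222 (i sh : Nat) : Nat := Bool.rec (s218_220 i sh) (s220_222 i sh) (Nat.ble 220 i)
noncomputable def s222_224 (i sh : Nat) : Nat := Bool.rec (Nat.shiftRight leaf222 sh) (Nat.shiftRight leaf223 sh) (Nat.ble 223 i)
noncomputable def s224_226 (i sh : Nat) : Nat := Bool.rec (Nat.shiftRight leaf224 sh) (Nat.shiftRight leaf225 sh) (Nat.ble 225 i)
noncomputable def s222_226 (i sh : Nat) : Nat := Bool.rec (s222_224 i sh) (s224_226 i sh) (Nat.ble 224 i)
noncomputable def s218_226 (i sh : Nat) : Nat := Bool.rec (s218_222 i sh) (s222_226 i sh) (Nat.ble 222 i)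
noncomputable def s213_226 (i sh : Nat) : Nat := Bool.rec (s213_218 i sh) (s218_226 i sh) (Nat.ble 218 i)
noncomputable def s226_228 (i sh : Nat) : Nat := Bool.rec (Nat.shiftRight leaf226 sh) (Nat.shiftRight leaf227 sh) (Nat.ble 227 i)
noncomputable def s226_229 (i sh : Nat) : Nat := Bool.rec (s226_228 i sh) (Nat.shiftRight leaf228 sh) (Nat.ble 228 i)
noncomputable def s229_231 (i sh : Nat) : Nat := Bool.rec (Nat.shiftRight leaf229 sh) (Nat.shiftRight leaf230 sh) (Nat.ble 230 i)
noncomputable def s226_231 (i sh : Nat) : Nat := Bool.rec (s226_229 i sh) (s229_231 i sh) (Nat.ble 229 i)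
noncomputable def s232_234 (i sh : Nat) : Nat := Bool.rec (Nat.shiftRight leaf232 sh) (Nat.shiftRight leaf233 sh) (Nat.ble 233 i)
noncomputable def s231_234 (i sh : Nat) : Nat := Bool.rec (Nat.shiftRight leaf231 sh) (s232_234 i sh) (Nat.ble 232 i)
noncomputable def s234_236 (i sh : Nat) : Nat := Bool.rec (Nat.shiftRight leaf234 sh) (Nat.shiftRight leaf235 sh) (Nat.ble 235 i)
noncomputable def s231_236 (i sh : Nat) : Nat := Bool.rec (s231_234 i sh) (s234_236 i sh) (Nat.ble 234 i)
noncomputable def s226_236 (i sh : Nat) : Nat := Bool.rec (s226_231 i sh) (s231_236 i sh) (Nat.ble 231 i)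
noncomputable def s236_238 (i sh : Nat) : Nat := Bool.rec (Nat.shiftRight leaf236 sh) (Nat.shiftRight leaf237 sh) (Nat.ble 237 i)
noncomputable def s236_239 (i sh : Nat) : Nat := Bool.rec (s236_238 i sh) (Nat.shiftRight leaf238 sh) (Nat.ble 238 i)
noncomputable def s226_239 (i sh : Nat) : Nat := Bool.rec (s226_236 i sh) (s236_239 i sh) (Nat.ble 236 i)
noncomputable def s213_239 (i sh : Nat) : Nat := Bool.rec (s213_226 i sh) (s226_239 i sh) (Nat.ble 226 i)
noncomputable def s204_239 (i sh : Nat) : Nat := Bool.rec (s204_213 i sh) (s213_239 i sh) (Nat.ble 213 i)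
noncomputable def s242_244 (i sh : Nat) : Nat := Bool.rec (Nat.shiftRight leaf242 sh) (Nat.shiftRight leaf243 sh) (Nat.ble 243 i)
noncomputable def s241_244 (i sh : Nat) : Nat := Bool.rec (Nat.shiftRight leaf241 sh) (s242_244 i sh) (Nat.ble 242 i)
noncomputable def s240_244 (i sh : Nat) : Nat := Bool.rec (Nat.shiftRight leaf240 sh) (s241_244 i sh) (Nat.ble 241 i)
noncomputable def s239_244 (i sh : Nat) : Nat := Bool.rec (Nat.shiftRight leaf239 sh) (s240_244 i sh) (Nat.ble 240 i)
noncomputable def s244_246 (i sh : Nat) : Nat := Bool.rec (Nat.shiftRight leaf244 sh) (Nat.shiftRight leaf245 sh) (Nat.ble 245 i)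
noncomputable def s247_249 (i sh : Nat) : Nat := Bool.rec (Nat.shiftRight leaf247 sh) (Nat.shiftRight leaf248 sh) (Nat.ble 248 i)
noncomputable def s247_250 (i sh : Nat) : Nat := Bool.rec (s247_249 i sh) (Nat.shiftRight leaf249 sh) (Nat.ble 249 i)
noncomputable def s246_250 (i sh : Nat) : Nat := Bool.rec (Nat.shiftRight leaf246 sh) (s247_250 i sh) (Nat.ble 247 i)
noncomputable def s250_252 (i sh : Nat) : Nat := Bool.rec (Nat.shiftRight leaf250 sh) (Nat.shiftRight leaf251 sh) (Nat.ble 251 i)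
noncomputable def s246_252 (i sh : Nat) : Nat := Bool.rec (s246_250 i sh) (s250_252 i sh) (Nat.ble 250 i)
noncomputable def s244_252 (i sh : Nat) : Nat := Bool.rec (s244_246 i sh) (s246_252 i sh) (Nat.ble 246 i)
noncomputable def s239_252 (i sh : Nat) : Nat := Bool.rec (s239_244 i sh) (s244_252 i sh) (Nat.ble 244 i)
noncomputable def s252_254 (i sh : Nat) : Nat := Bool.rec (Nat.shiftRight leaf252 sh) (Nat.shiftRight leaf253 sh) (Nat.ble 253 i)
noncomputable def s252_255 (i sh : Nat) : Nat := Bool.rec (s252_254 i sh) (Nat.shiftRight leaf254 sh) (Nat.ble 254 i)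
noncomputable def s256_258 (i sh : Nat) : Nat := Bool.rec (Nat.shiftRight leaf256 sh) (Nat.shiftRight leaf257 sh) (Nat.ble 257 i)
noncomputable def s255_258 (i sh : Nat) : Nat := Bool.rec (Nat.shiftRight leaf255 sh) (s256_258 i sh) (Nat.ble 256 i)
noncomputable def s252_258 (i sh : Nat) : Nat := Bool.rec (s252_255 i sh) (s255_258 i sh) (Nat.ble 255 i)
noncomputable def s252_259 (i sh : Nat) : Nat := Bool.rec (s252_258 i sh) (Nat.shiftRight leaf258 sh) (Nat.ble 258 i)
noncomputable def s239_259 (i sh : Nat) : Nat := Bool.rec (s239_252 i sh) (s252_259 i sh) (Nat.ble 252 i)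
noncomputable def s204_259 (i sh : Nat) : Nat := Bool.rec (s204_239 i sh) (s239_259 i sh) (Nat.ble 239 i)
noncomputable def s261_263 (i sh : Nat) : Nat := Bool.rec (Nat.shiftRight leaf261 sh) (Nat.shiftRight leaf262 sh) (Nat.ble 262 i)
noncomputable def s260_263 (i sh : Nat) : Nat := Bool.rec (Nat.shiftRight leaf260 sh) (s261_263 i sh) (Nat.ble 261 i)
noncomputable def s264_266 (i sh : Nat) : Nat := Bool.rec (Nat.shiftRight leaf264 sh) (Nat.shiftRight leaf265 sh) (Nat.ble 265 i)
noncomputable def s263_266 (i sh : Nat) : Nat := Bool.rec (Nat.shiftRight leaf263 sh) (s264_266 i sh) (Nat.ble 264 i)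
noncomputable def s260_266 (i sh : Nat) : Nat := Bool.rec (s260_263 i sh) (s263_266 i sh) (Nat.ble 263 i)
noncomputable def s266_268 (i sh : Nat) : Nat := Bool.rec (Nat.shiftRight leaf266 sh) (Nat.shiftRight leaf267 sh) (Nat.ble 267 i)
noncomputable def s266_269 (i sh : Nat) : Nat := Bool.rec (s266_268 i sh) (Nat.shiftRight leaf268 sh) (Nat.ble 268 i)
noncomputable def s270_272 (i sh : Nat) : Nat := Bool.rec (Nat.shiftRight leaf270 sh) (Nat.shiftRight leaf271 sh) (Nat.ble 271 i)
noncomputable def s269_272 (i sh : Nat) : Nat := Bool.rec (Nat.shiftRight leaf269 sh) (s270_272 i sh) (Nat.ble 270 i)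
noncomputable def s266_272 (i sh : Nat) : Nat := Bool.rec (s266_269 i sh) (s269_272 i sh) (Nat.ble 269 i)
noncomputable def s260_272 (i sh : Nat) : Nat := Bool.rec (s260_266 i sh) (s266_272 i sh) (Nat.ble 266 i)
noncomputable def s259_272 (i sh : Nat) : Nat := Bool.rec (Nat.shiftRight leaf259 sh) (s260_272 i sh) (Nat.ble 260 i)
noncomputable def s272_274 (i sh : Nat) : Nat := Bool.rec (Nat.shiftRight leaf272 sh) (Nat.shiftRight leaf273 sh) (Nat.ble 273 i)
noncomputable def s272_275 (i sh : Nat) : Nat := Bool.rec (s272_274 i sh) (Nat.shiftRight leaf274 sh) (Nat.ble 274 i)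
noncomputable def s275_277 (i sh : Nat) : Nat := Bool.rec (Nat.shiftRight leaf275 sh) (Nat.shiftRight leaf276 sh) (Nat.ble 276 i)
noncomputable def s272_277 (i sh : Nat) : Nat := Bool.rec (s272_275 i sh) (s275_277 i sh) (Nat.ble 275 i)
noncomputable def s277_279 (i sh : Nat) : Nat := Bool.rec (Nat.shiftRight leaf277 sh) (Nat.shiftRight leaf278 sh) (Nat.ble 278 i)
noncomputable def s279_281 (i sh : Nat) : Nat := Bool.rec (Nat.shiftRight leaf279 sh) (Nat.shiftRight leaf280 sh) (Nat.ble 280 i)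
noncomputable def s279_282 (i sh : Nat) : Nat := Bool.rec (s279_281 i sh) (Nat.shiftRight leaf281 sh) (Nat.ble 281 i)
noncomputable def s277_282 (i sh : Nat) : Nat := Bool.rec (s277_279 i sh) (s279_282 i sh) (Nat.ble 279 i)
noncomputable def s272_282 (i sh : Nat) : Nat := Bool.rec (s272_277 i sh) (s277_282 i sh) (Nat.ble 277 i)
noncomputable def s283_285 (i sh : Nat) : Nat := Bool.rec (Nat.shiftRight leaf283 sh) (Nat.shiftRight leaf284 sh) (Nat.ble 284 i)
noncomputable def s282_285 (i sh : Nat) : Nat := Bool.rec (Nat.shiftRight leaf282 sh) (s283_285 i sh) (Nat.ble 283 i)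
noncomputable def s285_287 (i sh : Nat) : Nat := Bool.rec (Nat.shiftRight leaf285 sh) (Nat.shiftRight leaf286 sh) (Nat.ble 286 i)
noncomputable def s288_290 (i sh : Nat) : Nat := Bool.rec (Nat.shiftRight leaf288 sh) (Nat.shiftRight leaf289 sh) (Nat.ble 289 i)
noncomputable def s287_290 (i sh : Nat) : Nat := Bool.rec (Nat.shiftRight leaf287 sh) (s288_290 i sh) (Nat.ble 288 i)
noncomputable def s285_290 (i sh : Nat) : Nat := Bool.rec (s285_287 i sh) (s287_290 i sh) (Nat.ble 287 i)
noncomputable def s282_290 (i sh : Nat) : Nat := Bool.rec (s282_285 i sh) (s285_290 i sh) (Nat.ble 285 i)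
noncomputable def s290_292 (i sh : Nat) : Nat := Bool.rec (Nat.shiftRight leaf290 sh) (Nat.shiftRight leaf291 sh) (Nat.ble 291 i)
noncomputable def s282_292 (i sh : Nat) : Nat := Bool.rec (s282_290 i sh) (s290_292 i sh) (Nat.ble 290 i)
noncomputable def s272_292 (i sh : Nat) : Nat := Bool.rec (s272_282 i sh) (s282_292 i sh) (Nat.ble 282 i)
noncomputable def s259_292 (i sh : Nat) : Nat := Bool.rec (s259_272 i sh) (s272_292 i sh) (Nat.ble 272 i)
noncomputable def s292_294 (i sh : Nat) : Nat := Bool.rec (Nat.shiftRight leaf292 sh) (Nat.shiftRight leaf293 sh) (Nat.ble 293 i)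
noncomputable def s292_295 (i sh : Nat) : Nat := Bool.rec (s292_294 i sh) (Nat.shiftRight leaf294 sh) (Nat.ble 294 i)
noncomputable def s295_297 (i sh : Nat) : Nat := Bool.rec (Nat.shiftRight leaf295 sh) (Nat.shiftRight leaf296 sh) (Nat.ble 296 i)
noncomputable def s297_299 (i sh : Nat) : Nat := Bool.rec (Nat.shiftRight leaf297 sh) (Nat.shiftRight leaf298 sh) (Nat.ble 298 i)
noncomputable def s295_299 (i sh : Nat) : Nat := Bool.rec (s295_297 i sh) (s297_299 i sh) (Nat.ble 297 i)
noncomputable def s292_299 (i sh : Nat) : Nat := Bool.rec (s292_295 i sh) (s295_299 i sh) (Nat.ble 295 i)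
noncomputable def s299_301 (i sh : Nat) : Nat := Bool.rec (Nat.shiftRight leaf299 sh) (Nat.shiftRight leaf300 sh) (Nat.ble 300 i)
noncomputable def s301_303 (i sh : Nat) : Nat := Bool.rec (Nat.shiftRight leaf301 sh) (Nat.shiftRight leaf302 sh) (Nat.ble 302 i)
noncomputable def s301_304 (i sh : Nat) : Nat := Bool.rec (s301_303 i sh) (Nat.shiftRight leaf303 sh) (Nat.ble 303 i)
noncomputable def s299_304 (i sh : Nat) : Nat := Bool.rec (s299_301 i sh) (s301_304 i sh) (Nat.ble 301 i)
noncomputable def s305_307 (i sh : Nat) : Nat := Bool.rec (Nat.shiftRight leaf305 sh) (Nat.shiftRight leaf306 sh) (Nat.ble 306 i)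
noncomputable def s304_307 (i sh : Nat) : Nat := Bool.rec (Nat.shiftRight leaf304 sh) (s305_307 i sh) (Nat.ble 305 i)
noncomputable def s307_309 (i sh : Nat) : Nat := Bool.rec (Nat.shiftRight leaf307 sh) (Nat.shiftRight leaf308 sh) (Nat.ble 308 i)
noncomputable def s304_309 (i sh : Nat) : Nat := Bool.rec (s304_307 i sh) (s307_309 i sh) (Nat.ble 307 i)
noncomputable def s299_309 (i sh : Nat) : Nat := Bool.rec (s299_304 i sh) (s304_309 i sh) (Nat.ble 304 i)
noncomputable def s292_309 (i sh : Nat) : Nat := Bool.rec (s292_299 i sh) (s299_309 i sh) (Nat.ble 299 i)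
noncomputable def s309_311 (i sh : Nat) : Nat := Bool.rec (Nat.shiftRight leaf309 sh) (Nat.shiftRight leaf310 sh) (Nat.ble 310 i)
noncomputable def s311_313 (i sh : Nat) : Nat := Bool.rec (Nat.shiftRight leaf311 sh) (Nat.shiftRight leaf312 sh) (Nat.ble 312 i)
noncomputable def s309_313 (i sh : Nat) : Nat := Bool.rec (s309_311 i sh) (s311_313 i sh) (Nat.ble 311 i)
noncomputable def s313_315 (i sh : Nat) : Nat := Bool.rec (Nat.shiftRight leaf313 sh) (Nat.shiftRight leaf314 sh) (Nat.ble 314 i)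
noncomputable def s315_317 (i sh : Nat) : Nat := Bool.rec (Nat.shiftRight leaf315 sh) (Nat.shiftRight leaf316 sh) (Nat.ble 316 i)
noncomputable def s313_317 (i sh : Nat) : Nat := Bool.rec (s313_315 i sh) (s315_317 i sh) (Nat.ble 315 i)
noncomputable def s309_317 (i sh : Nat) : Nat := Bool.rec (s309_313 i sh) (s313_317 i sh) (Nat.ble 313 i)
noncomputable def s317_319 (i sh : Nat) : Nat := Bool.rec (Nat.shiftRight leaf317 sh) (Nat.shiftRight leaf318 sh) (Nat.ble 318 i)
noncomputable def s317_320 (i sh : Nat) : Nat := Bool.rec (s317_319 i sh) (Nat.shiftRight leaf319 sh) (Nat.ble 319 i)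
noncomputable def s320_322 (i sh : Nat) : Nat := Bool.rec (Nat.shiftRight leaf320 sh) (Nat.shiftRight leaf321 sh) (Nat.ble 321 i)
noncomputable def s317_322 (i sh : Nat) : Nat := Bool.rec (s317_320 i sh) (s320_322 i sh) (Nat.ble 320 i)
noncomputable def s322_324 (i sh : Nat) : Nat := Bool.rec (Nat.shiftRight leaf322 sh) (Nat.shiftRight leaf323 sh) (Nat.ble 323 i)
noncomputable def s325_327 (i sh : Nat) : Nat := Bool.rec (Nat.shiftRight leaf325 sh) (Nat.shiftRight leaf326 sh) (Nat.ble 326 i)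
noncomputable def s324_327 (i sh : Nat) : Nat := Bool.rec (Nat.shiftRight leaf324 sh) (s325_327 i sh) (Nat.ble 325 i)
noncomputable def s322_327 (i sh : Nat) : Nat := Bool.rec (s322_324 i sh) (s324_327 i sh) (Nat.ble 324 i)
noncomputable def s317_327 (i sh : Nat) : Nat := Bool.rec (s317_322 i sh) (s322_327 i sh) (Nat.ble 322 i)
noncomputable def s309_327 (i sh : Nat) : Nat := Bool.rec (s309_317 i sh) (s317_327 i sh) (Nat.ble 317 i)
noncomputable def s292_327 (i sh : Nat) : Nat := Bool.rec (s292_309 i sh) (s309_327 i sh) (Nat.ble 309 i)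
noncomputable def s328_330 (i sh : Nat) : Nat := Bool.rec (Nat.shiftRight leaf328 sh) (Nat.shiftRight leaf329 sh) (Nat.ble 329 i)
noncomputable def s328_331 (i sh : Nat) : Nat := Bool.rec (s328_330 i sh) (Nat.shiftRight leaf330 sh) (Nat.ble 330 i)
noncomputable def s331_333 (i sh : Nat) : Nat := Bool.rec (Nat.shiftRight leaf331 sh) (Nat.shiftRight leaf332 sh) (Nat.ble 332 i)
noncomputable def s328_333 (i sh : Nat) : Nat := Bool.rec (s328_331 i sh) (s331_333 i sh) (Nat.ble 331 i)
noncomputable def s327_333 (i sh : Nat) : Nat := Bool.rec (Nat.shiftRight leaf327 sh) (s328_333 i sh) (Nat.ble 328 i)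
noncomputable def s333_335 (i sh : Nat) : Nat := Bool.rec (Nat.shiftRight leaf333 sh) (Nat.shiftRight leaf334 sh) (Nat.ble 334 i)
noncomputable def s335_337 (i sh : Nat) : Nat := Bool.rec (Nat.shiftRight leaf335 sh) (Nat.shiftRight leaf336 sh) (Nat.ble 336 i)
noncomputable def s333_337 (i sh : Nat) : Nat := Bool.rec (s333_335 i sh) (s335_337 i sh) (Nat.ble 335 i)
noncomputable def s338_340 (i sh : Nat) : Nat := Bool.rec (Nat.shiftRight leaf338 sh) (Nat.shiftRight leaf339 sh) (Nat.ble 339 i)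
noncomputable def s340_342 (i sh : Nat) : Nat := Bool.rec (Nat.shiftRight leaf340 sh) (Nat.shiftRight leaf341 sh) (Nat.ble 341 i)
noncomputable def s338_342 (i sh : Nat) : Nat := Bool.rec (s338_340 i sh) (s340_342 i sh) (Nat.ble 340 i)
noncomputable def s337_342 (i sh : Nat) : Nat := Bool.rec (Nat.shiftRight leaf337 sh) (s338_342 i sh) (Nat.ble 338 i)
noncomputable def s333_342 (i sh : Nat) : Nat := Bool.rec (s333_337 i sh) (s337_342 i sh) (Nat.ble 337 i)
noncomputable def s327_342 (i sh : Nat) : Nat := Bool.rec (s327_333 i sh) (s333_342 i sh) (Nat.ble 333 i)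
noncomputable def s342_344 (i sh : Nat) : Nat := Bool.rec (Nat.shiftRight leaf342 sh) (Nat.shiftRight leaf343 sh) (Nat.ble 343 i)
noncomputable def s342_345 (i sh : Nat) : Nat := Bool.rec (s342_344 i sh) (Nat.shiftRight leaf344 sh) (Nat.ble 344 i)
noncomputable def s345_347 (i sh : Nat) : Nat := Bool.rec (Nat.shiftRight leaf345 sh) (Nat.shiftRight leaf346 sh) (Nat.ble 346 i)
noncomputable def s345_348 (i sh : Nat) : Nat := Bool.rec (s345_347 i sh) (Nat.shiftRight leaf347 sh) (Nat.ble 347 i)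
noncomputable def s342_348 (i sh : Nat) : Nat := Bool.rec (s342_345 i sh) (s345_348 i sh) (Nat.ble 345 i)
noncomputable def s348_350 (i sh : Nat) : Nat := Bool.rec (Nat.shiftRight leaf348 sh) (Nat.shiftRight leaf349 sh) (Nat.ble 349 i)
noncomputable def s342_350 (i sh : Nat) : Nat := Bool.rec (s342_348 i sh) (s348_350 i sh) (Nat.ble 348 i)
noncomputable def s327_350 (i sh : Nat) : Nat := Bool.rec (s327_342 i sh) (s342_350 i sh) (Nat.ble 342 i)
noncomputable def s292_350 (i sh : Nat) : Nat := Bool.rec (s292_327 i sh) (s327_350 i sh) (Nat.ble 327 i)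
noncomputable def s259_350 (i sh : Nat) : Nat := Bool.rec (s259_292 i sh) (s292_350 i sh) (Nat.ble 292 i)
noncomputable def s204_350 (i sh : Nat) : Nat := Bool.rec (s204_259 i sh) (s259_350 i sh) (Nat.ble 259 i)
noncomputable def s350_352 (i sh : Nat) : Nat := Bool.rec (Nat.shiftRight leaf350 sh) (Nat.shiftRight leaf351 sh) (Nat.ble 351 i)
noncomputable def s353_355 (i sh : Nat) : Nat := Bool.rec (Nat.shiftRight leaf353 sh) (Nat.shiftRight leaf354 sh) (Nat.ble 354 i)
noncomputable def s352_355 (i sh : Nat) : Nat := Bool.rec (Nat.shiftRight leaf352 sh) (s353_355 i sh) (Nat.ble 353 i)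
noncomputable def s350_355 (i sh : Nat) : Nat := Bool.rec (s350_352 i sh) (s352_355 i sh) (Nat.ble 352 i)
noncomputable def s355_357 (i sh : Nat) : Nat := Bool.rec (Nat.shiftRight leaf355 sh) (Nat.shiftRight leaf356 sh) (Nat.ble 356 i)
noncomputable def s358_360 (i sh : Nat) : Nat := Bool.rec (Nat.shiftRight leaf358 sh) (Nat.shiftRight leaf359 sh) (Nat.ble 359 i)
noncomputable def s357_360 (i sh : Nat) : Nat := Bool.rec (Nat.shiftRight leaf357 sh) (s358_360 i sh) (Nat.ble 358 i)
noncomputable def s355_360 (i sh : Nat) : Nat := Bool.rec (s355_357 i sh) (s357_360 i sh) (Nat.ble 357 i)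
noncomputable def s350_360 (i sh : Nat) : Nat := Bool.rec (s350_355 i sh) (s355_360 i sh) (Nat.ble 355 i)
noncomputable def s361_363 (i sh : Nat) : Nat := Bool.rec (Nat.shiftRight leaf361 sh) (Nat.shiftRight leaf362 sh) (Nat.ble 362 i)
noncomputable def s360_363 (i sh : Nat) : Nat := Bool.rec (Nat.shiftRight leaf360 sh) (s361_363 i sh) (Nat.ble 361 i)
noncomputable def s363_365 (i sh : Nat) : Nat := Bool.rec (Nat.shiftRight leaf363 sh) (Nat.shiftRight leaf364 sh) (Nat.ble 364 i)
noncomputable def s360_365 (i sh : Nat) : Nat := Bool.rec (s360_363 i sh) (s363_365 i sh) (Nat.ble 363 i)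
noncomputable def s365_367 (i sh : Nat) : Nat := Bool.rec (Nat.shiftRight leaf365 sh) (Nat.shiftRight leaf366 sh) (Nat.ble 366 i)
noncomputable def s367_369 (i sh : Nat) : Nat := Bool.rec (Nat.shiftRight leaf367 sh) (Nat.shiftRight leaf368 sh) (Nat.ble 368 i)
noncomputable def s365_369 (i sh : Nat) : Nat := Bool.rec (s365_367 i sh) (s367_369 i sh) (Nat.ble 367 i)
noncomputable def s360_369 (i sh : Nat) : Nat := Bool.rec (s360_365 i sh) (s365_369 i sh) (Nat.ble 365 i)
noncomputable def s350_369 (i sh : Nat) : Nat := Bool.rec (s350_360 i sh) (s360_369 i sh) (Nat.ble 360 i)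
noncomputable def s370_372 (i sh : Nat) : Nat := Bool.rec (Nat.shiftRight leaf370 sh) (Nat.shiftRight leaf371 sh) (Nat.ble 371 i)
noncomputable def s369_372 (i sh : Nat) : Nat := Bool.rec (Nat.shiftRight leaf369 sh) (s370_372 i sh) (Nat.ble 370 i)
noncomputable def s372_374 (i sh : Nat) : Nat := Bool.rec (Nat.shiftRight leaf372 sh) (Nat.shiftRight leaf373 sh) (Nat.ble 373 i)
noncomputable def s372_375 (i sh : Nat) : Nat := Bool.rec (s372_374 i sh) (Nat.shiftRight leaf374 sh) (Nat.ble 374 i)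
noncomputable def s369_375 (i sh : Nat) : Nat := Bool.rec (s369_372 i sh) (s372_375 i sh) (Nat.ble 372 i)
noncomputable def s375_377 (i sh : Nat) : Nat := Bool.rec (Nat.shiftRight leaf375 sh) (Nat.shiftRight leaf376 sh) (Nat.ble 376 i)
noncomputable def s377_379 (i sh : Nat) : Nat := Bool.rec (Nat.shiftRight leaf377 sh) (Nat.shiftRight leaf378 sh) (Nat.ble 378 i)
noncomputable def s375_379 (i sh : Nat) : Nat := Bool.rec (s375_377 i sh) (s377_379 i sh) (Nat.ble 377 i)
noncomputable def s379_381 (i sh : Nat) : Nat := Bool.rec (Nat.shiftRight leaf379 sh) (Nat.shiftRight leaf380 sh) (Nat.ble 380 i)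
noncomputable def s375_381 (i sh : Nat) : Nat := Bool.rec (s375_379 i sh) (s379_381 i sh) (Nat.ble 379 i)
noncomputable def s381_383 (i sh : Nat) : Nat := Bool.rec (Nat.shiftRight leaf381 sh) (Nat.shiftRight leaf382 sh) (Nat.ble 382 i)
noncomputable def s381_384 (i sh : Nat) : Nat := Bool.rec (s381_383 i sh) (Nat.shiftRight leaf383 sh) (Nat.ble 383 i)
noncomputable def s384_386 (i sh : Nat) : Nat := Bool.rec (Nat.shiftRight leaf384 sh) (Nat.shiftRight leaf385 sh) (Nat.ble 385 i)
noncomputable def s384_387 (i sh : Nat) : Nat := Bool.rec (s384_386 i sh) (Nat.shiftRight leaf386 sh) (Nat.ble 386 i)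
noncomputable def s381_387 (i sh : Nat) : Nat := Bool.rec (s381_384 i sh) (s384_387 i sh) (Nat.ble 384 i)
noncomputable def s375_387 (i sh : Nat) : Nat := Bool.rec (s375_381 i sh) (s381_387 i sh) (Nat.ble 381 i)
noncomputable def s369_387 (i sh : Nat) : Nat := Bool.rec (s369_375 i sh) (s375_387 i sh) (Nat.ble 375 i)
noncomputable def s387_389 (i sh : Nat) : Nat := Bool.rec (Nat.shiftRight leaf387 sh) (Nat.shiftRight leaf388 sh) (Nat.ble 388 i)
noncomputable def s389_391 (i sh : Nat) : Nat := Bool.rec (Nat.shiftRight leaf389 sh) (Nat.shiftRight leaf390 sh) (Nat.ble 390 i)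
noncomputable def s387_391 (i sh : Nat) : Nat := Bool.rec (s387_389 i sh) (s389_391 i sh) (Nat.ble 389 i)
noncomputable def s391_393 (i sh : Nat) : Nat := Bool.rec (Nat.shiftRight leaf391 sh) (Nat.shiftRight leaf392 sh) (Nat.ble 392 i)
noncomputable def s391_394 (i sh : Nat) : Nat := Bool.rec (s391_393 i sh) (Nat.shiftRight leaf393 sh) (Nat.ble 393 i)
noncomputable def s387_394 (i sh : Nat) : Nat := Bool.rec (s387_391 i sh) (s391_394 i sh) (Nat.ble 391 i)
noncomputable def s394_396 (i sh : Nat) : Nat := Bool.rec (Nat.shiftRight leaf394 sh) (Nat.shiftRight leaf395 sh) (Nat.ble 395 i)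
noncomputable def s394_397 (i sh : Nat) : Nat := Bool.rec (s394_396 i sh) (Nat.shiftRight leaf396 sh) (Nat.ble 396 i)
noncomputable def s394_398 (i sh : Nat) : Nat := Bool.rec (s394_397 i sh) (Nat.shiftRight leaf397 sh) (Nat.ble 397 i)
noncomputable def s398_400 (i sh : Nat) : Nat := Bool.rec (Nat.shiftRight leaf398 sh) (Nat.shiftRight leaf399 sh) (Nat.ble 399 i)
noncomputable def s394_400 (i sh : Nat) : Nat := Bool.rec (s394_398 i sh) (s398_400 i sh) (Nat.ble 398 i)
noncomputable def s387_400 (i sh : Nat) : Nat := Bool.rec (s387_394 i sh) (s394_400 i sh) (Nat.ble 394 i)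
noncomputable def s400_402 (i sh : Nat) : Nat := Bool.rec (Nat.shiftRight leaf400 sh) (Nat.shiftRight leaf401 sh) (Nat.ble 401 i)
noncomputable def s402_404 (i sh : Nat) : Nat := Bool.rec (Nat.shiftRight leaf402 sh) (Nat.shiftRight leaf403 sh) (Nat.ble 403 i)
noncomputable def s400_404 (i sh : Nat) : Nat := Bool.rec (s400_402 i sh) (s402_404 i sh) (Nat.ble 402 i)
noncomputable def s400_405 (i sh : Nat) : Nat := Bool.rec (s400_404 i sh) (Nat.shiftRight leaf404 sh) (Nat.ble 404 i)
noncomputable def s387_405 (i sh : Nat) : Nat := Bool.rec (s387_400 i sh) (s400_405 i sh) (Nat.ble 400 i)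
noncomputable def s369_405 (i sh : Nat) : Nat := Bool.rec (s369_387 i sh) (s387_405 i sh) (Nat.ble 387 i)
noncomputable def s350_405 (i sh : Nat) : Nat := Bool.rec (s350_369 i sh) (s369_405 i sh) (Nat.ble 369 i)
noncomputable def s405_407 (i sh : Nat) : Nat := Bool.rec (Nat.shiftRight leaf405 sh) (Nat.shiftRight leaf406 sh) (Nat.ble 406 i)
noncomputable def s407_409 (i sh : Nat) : Nat := Bool.rec (Nat.shiftRight leaf407 sh) (Nat.shiftRight leaf408 sh) (Nat.ble 408 i)
noncomputable def s407_410 (i sh : Nat) : Nat := Bool.rec (s407_409 i sh) (Nat.shiftRight leaf409 sh) (Nat.ble 409 i)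
noncomputable def s405_410 (i sh : Nat) : Nat := Bool.rec (s405_407 i sh) (s407_410 i sh) (Nat.ble 407 i)
noncomputable def s410_412 (i sh : Nat) : Nat := Bool.rec (Nat.shiftRight leaf410 sh) (Nat.shiftRight leaf411 sh) (Nat.ble 411 i)
noncomputable def s412_414 (i sh : Nat) : Nat := Bool.rec (Nat.shiftRight leaf412 sh) (Nat.shiftRight leaf413 sh) (Nat.ble 413 i)
noncomputable def s410_414 (i sh : Nat) : Nat := Bool.rec (s410_412 i sh) (s412_414 i sh) (Nat.ble 412 i)
noncomputable def s405_414 (i sh : Nat) : Nat := Bool.rec (s405_410 i sh) (s410_414 i sh) (Nat.ble 410 i)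
noncomputable def s414_416 (i sh : Nat) : Nat := Bool.rec (Nat.shiftRight leaf414 sh) (Nat.shiftRight leaf415 sh) (Nat.ble 415 i)
noncomputable def s414_417 (i sh : Nat) : Nat := Bool.rec (s414_416 i sh) (Nat.shiftRight leaf416 sh) (Nat.ble 416 i)
noncomputable def s417_419 (i sh : Nat) : Nat := Bool.rec (Nat.shiftRight leaf417 sh) (Nat.shiftRight leaf418 sh) (Nat.ble 418 i)
noncomputable def s414_419 (i sh : Nat) : Nat := Bool.rec (s414_417 i sh) (s417_419 i sh) (Nat.ble 417 i)
noncomputable def s405_419 (i sh : Nat) : Nat := Bool.rec (s405_414 i sh) (s414_419 i sh) (Nat.ble 414 i)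
noncomputable def s419_421 (i sh : Nat) : Nat := Bool.rec (Nat.shiftRight leaf419 sh) (Nat.shiftRight leaf420 sh) (Nat.ble 420 i)
noncomputable def s421_423 (i sh : Nat) : Nat := Bool.rec (Nat.shiftRight leaf421 sh) (Nat.shiftRight leaf422 sh) (Nat.ble 422 i)
noncomputable def s419_423 (i sh : Nat) : Nat := Bool.rec (s419_421 i sh) (s421_423 i sh) (Nat.ble 421 i)
noncomputable def s423_425 (i sh : Nat) : Nat := Bool.rec (Nat.shiftRight leaf423 sh) (Nat.shiftRight leaf424 sh) (Nat.ble 424 i)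
noncomputable def s425_427 (i sh : Nat) : Nat := Bool.rec (Nat.shiftRight leaf425 sh) (Nat.shiftRight leaf426 sh) (Nat.ble 426 i)
noncomputable def s423_427 (i sh : Nat) : Nat := Bool.rec (s423_425 i sh) (s425_427 i sh) (Nat.ble 425 i)
noncomputable def s419_427 (i sh : Nat) : Nat := Bool.rec (s419_423 i sh) (s423_427 i sh) (Nat.ble 423 i)
noncomputable def s427_429 (i sh : Nat) : Nat := Bool.rec (Nat.shiftRight leaf427 sh) (Nat.shiftRight leaf428 sh) (Nat.ble 428 i)
noncomputable def s429_431 (i sh : Nat) : Nat := Bool.rec (Nat.shiftRight leaf429 sh) (Nat.shiftRight leaf430 sh) (Nat.ble 430 i)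
noncomputable def s429_432 (i sh : Nat) : Nat := Bool.rec (s429_431 i sh) (Nat.shiftRight leaf431 sh) (Nat.ble 431 i)
noncomputable def s427_432 (i sh : Nat) : Nat := Bool.rec (s427_429 i sh) (s429_432 i sh) (Nat.ble 429 i)
noncomputable def s419_432 (i sh : Nat) : Nat := Bool.rec (s419_427 i sh) (s427_432 i sh) (Nat.ble 427 i)
noncomputable def s405_432 (i sh : Nat) : Nat := Bool.rec (s405_419 i sh) (s419_432 i sh) (Nat.ble 419 i)
noncomputable def s405_433 (i sh : Nat) : Nat := Bool.rec (s405_432 i sh) (Nat.shiftRight leaf432 sh) (Nat.ble 432 i)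
noncomputable def s433_435 (i sh : Nat) : Nat := Bool.rec (Nat.shiftRight leaf433 sh) (Nat.shiftRight leaf434 sh) (Nat.ble 434 i)
noncomputable def s433_436 (i sh : Nat) : Nat := Bool.rec (s433_435 i sh) (Nat.shiftRight leaf435 sh) (Nat.ble 435 i)
noncomputable def s433_437 (i sh : Nat) : Nat := Bool.rec (s433_436 i sh) (Nat.shiftRight leaf436 sh) (Nat.ble 436 i)
noncomputable def s433_438 (i sh : Nat) : Nat := Bool.rec (s433_437 i sh) (Nat.shiftRight leaf437 sh) (Nat.ble 437 i)
noncomputable def s438_440 (i sh : Nat) : Nat := Bool.rec (Nat.shiftRight leaf438 sh) (Nat.shiftRight leaf439 sh) (Nat.ble 439 i)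
noncomputable def s433_440 (i sh : Nat) : Nat := Bool.rec (s433_438 i sh) (s438_440 i sh) (Nat.ble 438 i)
noncomputable def s440_442 (i sh : Nat) : Nat := Bool.rec (Nat.shiftRight leaf440 sh) (Nat.shiftRight leaf441 sh) (Nat.ble 441 i)
noncomputable def s440_443 (i sh : Nat) : Nat := Bool.rec (s440_442 i sh) (Nat.shiftRight leaf442 sh) (Nat.ble 442 i)
noncomputable def s443_445 (i sh : Nat) : Nat := Bool.rec (Nat.shiftRight leaf443 sh) (Nat.shiftRight leaf444 sh) (Nat.ble 444 i)
noncomputable def s443_446 (i sh : Nat) : Nat := Bool.rec (s443_445 i sh) (Nat.shiftRight leaf445 sh) (Nat.ble 445 i)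
noncomputable def s446_448 (i sh : Nat) : Nat := Bool.rec (Nat.shiftRight leaf446 sh) (Nat.shiftRight leaf447 sh) (Nat.ble 447 i)
noncomputable def s443_448 (i sh : Nat) : Nat := Bool.rec (s443_446 i sh) (s446_448 i sh) (Nat.ble 446 i)
noncomputable def s440_448 (i sh : Nat) : Nat := Bool.rec (s440_443 i sh) (s443_448 i sh) (Nat.ble 443 i)
noncomputable def s433_448 (i sh : Nat) : Nat := Bool.rec (s433_440 i sh) (s440_448 i sh) (Nat.ble 440 i)
noncomputable def s405_448 (i sh : Nat) : Nat := Bool.rec (s405_433 i sh) (s433_448 i sh) (Nat.ble 433 i)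
noncomputable def s350_448 (i sh : Nat) : Nat := Bool.rec (s350_405 i sh) (s405_448 i sh) (Nat.ble 405 i)
noncomputable def s448_450 (i sh : Nat) : Nat := Bool.rec (Nat.shiftRight leaf448 sh) (Nat.shiftRight leaf449 sh) (Nat.ble 449 i)
noncomputable def s448_451 (i sh : Nat) : Nat := Bool.rec (s448_450 i sh) (Nat.shiftRight leaf450 sh) (Nat.ble 450 i)
noncomputable def s448_452 (i sh : Nat) : Nat := Bool.rec (s448_451 i sh) (Nat.shiftRight leaf451 sh) (Nat.ble 451 i)
noncomputable def s452_454 (i sh : Nat) : Nat := Bool.rec (Nat.shiftRight leaf452 sh) (Nat.shiftRight leaf453 sh) (Nat.ble 453 i)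
noncomputable def s454_456 (i sh : Nat) : Nat := Bool.rec (Nat.shiftRight leaf454 sh) (Nat.shiftRight leaf455 sh) (Nat.ble 455 i)
noncomputable def s452_456 (i sh : Nat) : Nat := Bool.rec (s452_454 i sh) (s454_456 i sh) (Nat.ble 454 i)
noncomputable def s448_456 (i sh : Nat) : Nat := Bool.rec (s448_452 i sh) (s452_456 i sh) (Nat.ble 452 i)
noncomputable def s456_458 (i sh : Nat) : Nat := Bool.rec (Nat.shiftRight leaf456 sh) (Nat.shiftRight leaf457 sh) (Nat.ble 457 i)
noncomputable def s458_460 (i sh : Nat) : Nat := Bool.rec (Nat.shiftRight leaf458 sh) (Nat.shiftRight leaf459 sh) (Nat.ble 459 i)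
noncomputable def s456_460 (i sh : Nat) : Nat := Bool.rec (s456_458 i sh) (s458_460 i sh) (Nat.ble 458 i)
noncomputable def s460_462 (i sh : Nat) : Nat := Bool.rec (Nat.shiftRight leaf460 sh) (Nat.shiftRight leaf461 sh) (Nat.ble 461 i)
noncomputable def s460_463 (i sh : Nat) : Nat := Bool.rec (s460_462 i sh) (Nat.shiftRight leaf462 sh) (Nat.ble 462 i)
noncomputable def s456_463 (i sh : Nat) : Nat := Bool.rec (s456_460 i sh) (s460_463 i sh) (Nat.ble 460 i)
noncomputable def s463_465 (i sh : Nat) : Nat := Bool.rec (Nat.shiftRight leaf463 sh) (Nat.shiftRight leaf464 sh) (Nat.ble 464 i)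
noncomputable def s465_467 (i sh : Nat) : Nat := Bool.rec (Nat.shiftRight leaf465 sh) (Nat.shiftRight leaf466 sh) (Nat.ble 466 i)
noncomputable def s463_467 (i sh : Nat) : Nat := Bool.rec (s463_465 i sh) (s465_467 i sh) (Nat.ble 465 i)
noncomputable def s463_468 (i sh : Nat) : Nat := Bool.rec (s463_467 i sh) (Nat.shiftRight leaf467 sh) (Nat.ble 467 i)
noncomputable def s456_468 (i sh : Nat) : Nat := Bool.rec (s456_463 i sh) (s463_468 i sh) (Nat.ble 463 i)
noncomputable def s448_468 (i sh : Nat) : Nat := Bool.rec (s448_456 i sh) (s456_468 i sh) (Nat.ble 456 i)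
noncomputable def s468_470 (i sh : Nat) : Nat := Bool.rec (Nat.shiftRight leaf468 sh) (Nat.shiftRight leaf469 sh) (Nat.ble 469 i)
noncomputable def s470_472 (i sh : Nat) : Nat := Bool.rec (Nat.shiftRight leaf470 sh) (Nat.shiftRight leaf471 sh) (Nat.ble 471 i)
noncomputable def s468_472 (i sh : Nat) : Nat := Bool.rec (s468_470 i sh) (s470_472 i sh) (Nat.ble 470 i)
noncomputable def s468_473 (i sh : Nat) : Nat := Bool.rec (s468_472 i sh) (Nat.shiftRight leaf472 sh) (Nat.ble 472 i)
noncomputable def s473_475 (i sh : Nat) : Nat := Bool.rec (Nat.shiftRight leaf473 sh) (Nat.shiftRight leaf474 sh) (Nat.ble 474 i)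
noncomputable def s473_476 (i sh : Nat) : Nat := Bool.rec (s473_475 i sh) (Nat.shiftRight leaf475 sh) (Nat.ble 475 i)
noncomputable def s476_478 (i sh : Nat) : Nat := Bool.rec (Nat.shiftRight leaf476 sh) (Nat.shiftRight leaf477 sh) (Nat.ble 477 i)
noncomputable def s476_479 (i sh : Nat) : Nat := Bool.rec (s476_478 i sh) (Nat.shiftRight leaf478 sh) (Nat.ble 478 i)
noncomputable def s473_479 (i sh : Nat) : Nat := Bool.rec (s473_476 i sh) (s476_479 i sh) (Nat.ble 476 i)
noncomputable def s468_479 (i sh : Nat) : Nat := Bool.rec (s468_473 i sh) (s473_479 i sh) (Nat.ble 473 i)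
noncomputable def s479_481 (i sh : Nat) : Nat := Bool.rec (Nat.shiftRight leaf479 sh) (Nat.shiftRight leaf480 sh) (Nat.ble 480 i)
noncomputable def s479_482 (i sh : Nat) : Nat := Bool.rec (s479_481 i sh) (Nat.shiftRight leaf481 sh) (Nat.ble 481 i)
noncomputable def s482_484 (i sh : Nat) : Nat := Bool.rec (Nat.shiftRight leaf482 sh) (Nat.shiftRight leaf483 sh) (Nat.ble 483 i)
noncomputable def s479_484 (i sh : Nat) : Nat := Bool.rec (s479_482 i sh) (s482_484 i sh) (Nat.ble 482 i)
noncomputable def s485_487 (i sh : Nat) : Nat := Bool.rec (Nat.shiftRight leaf485 sh) (Nat.shiftRight leaf486 sh) (Nat.ble 486 i)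
noncomputable def s484_487 (i sh : Nat) : Nat := Bool.rec (Nat.shiftRight leaf484 sh) (s485_487 i sh) (Nat.ble 485 i)
noncomputable def s488_490 (i sh : Nat) : Nat := Bool.rec (Nat.shiftRight leaf488 sh) (Nat.shiftRight leaf489 sh) (Nat.ble 489 i)
noncomputable def s487_490 (i sh : Nat) : Nat := Bool.rec (Nat.shiftRight leaf487 sh) (s488_490 i sh) (Nat.ble 488 i)
noncomputable def s484_490 (i sh : Nat) : Nat := Bool.rec (s484_487 i sh) (s487_490 i sh) (Nat.ble 487 i)
noncomputable def s479_490 (i sh : Nat) : Nat := Bool.rec (s479_484 i sh) (s484_490 i sh) (Nat.ble 484 i)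
noncomputable def s468_490 (i sh : Nat) : Nat := Bool.rec (s468_479 i sh) (s479_490 i sh) (Nat.ble 479 i)
noncomputable def s448_490 (i sh : Nat) : Nat := Bool.rec (s448_468 i sh) (s468_490 i sh) (Nat.ble 468 i)
noncomputable def s491_493 (i sh : Nat) : Nat := Bool.rec (Nat.shiftRight leaf491 sh) (Nat.shiftRight leaf492 sh) (Nat.ble 492 i)
noncomputable def s490_493 (i sh : Nat) : Nat := Bool.rec (Nat.shiftRight leaf490 sh) (s491_493 i sh) (Nat.ble 491 i)
noncomputable def s493_495 (i sh : Nat) : Nat := Bool.rec (Nat.shiftRight leaf493 sh) (Nat.shiftRight leaf494 sh) (Nat.ble 494 i)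
noncomputable def s490_495 (i sh : Nat) : Nat := Bool.rec (s490_493 i sh) (s493_495 i sh) (Nat.ble 493 i)
noncomputable def s496_498 (i sh : Nat) : Nat := Bool.rec (Nat.shiftRight leaf496 sh) (Nat.shiftRight leaf497 sh) (Nat.ble 497 i)
noncomputable def s495_498 (i sh : Nat) : Nat := Bool.rec (Nat.shiftRight leaf495 sh) (s496_498 i sh) (Nat.ble 496 i)
noncomputable def s495_499 (i sh : Nat) : Nat := Bool.rec (s495_498 i sh) (Nat.shiftRight leaf498 sh) (Nat.ble 498 i)
noncomputable def s499_501 (i sh : Nat) : Nat := Bool.rec (Nat.shiftRight leaf499 sh) (Nat.shiftRight leaf500 sh) (Nat.ble 500 i)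
noncomputable def s501_503 (i sh : Nat) : Nat := Bool.rec (Nat.shiftRight leaf501 sh) (Nat.shiftRight leaf502 sh) (Nat.ble 502 i)
noncomputable def s499_503 (i sh : Nat) : Nat := Bool.rec (s499_501 i sh) (s501_503 i sh) (Nat.ble 501 i)
noncomputable def s495_503 (i sh : Nat) : Nat := Bool.rec (s495_499 i sh) (s499_503 i sh) (Nat.ble 499 i)
noncomputable def s490_503 (i sh : Nat) : Nat := Bool.rec (s490_495 i sh) (s495_503 i sh) (Nat.ble 495 i)
noncomputable def s503_505 (i sh : Nat) : Nat := Bool.rec (Nat.shiftRight leaf503 sh) (Nat.shiftRight leaf504 sh) (Nat.ble 504 i)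
noncomputable def s505_507 (i sh : Nat) : Nat := Bool.rec (Nat.shiftRight leaf505 sh) (Nat.shiftRight leaf506 sh) (Nat.ble 506 i)
noncomputable def s503_507 (i sh : Nat) : Nat := Bool.rec (s503_505 i sh) (s505_507 i sh) (Nat.ble 505 i)
noncomputable def s507_509 (i sh : Nat) : Nat := Bool.rec (Nat.shiftRight leaf507 sh) (Nat.shiftRight leaf508 sh) (Nat.ble 508 i)
noncomputable def s509_511 (i sh : Nat) : Nat := Bool.rec (Nat.shiftRight leaf509 sh) (Nat.shiftRight leaf510 sh) (Nat.ble 510 i)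
noncomputable def s509_512 (i sh : Nat) : Nat := Bool.rec (s509_511 i sh) (Nat.shiftRight leaf511 sh) (Nat.ble 511 i)
noncomputable def s507_512 (i sh : Nat) : Nat := Bool.rec (s507_509 i sh) (s509_512 i sh) (Nat.ble 509 i)
noncomputable def s503_512 (i sh : Nat) : Nat := Bool.rec (s503_507 i sh) (s507_512 i sh) (Nat.ble 507 i)
noncomputable def s513_515 (i sh : Nat) : Nat := Bool.rec (Nat.shiftRight leaf513 sh) (Nat.shiftRight leaf514 sh) (Nat.ble 514 i)
noncomputable def s512_515 (i sh : Nat) : Nat := Bool.rec (Nat.shiftRight leaf512 sh) (s513_515 i sh) (Nat.ble 513 i)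
noncomputable def s503_515 (i sh : Nat) : Nat := Bool.rec (s503_512 i sh) (s512_515 i sh) (Nat.ble 512 i)
noncomputable def s490_515 (i sh : Nat) : Nat := Bool.rec (s490_503 i sh) (s503_515 i sh) (Nat.ble 503 i)
noncomputable def s515_517 (i sh : Nat) : Nat := Bool.rec (Nat.shiftRight leaf515 sh) (Nat.shiftRight leaf516 sh) (Nat.ble 516 i)
noncomputable def s515_518 (i sh : Nat) : Nat := Bool.rec (s515_517 i sh) (Nat.shiftRight leaf517 sh) (Nat.ble 517 i)
noncomputable def s518_520 (i sh : Nat) : Nat := Bool.rec (Nat.shiftRight leaf518 sh) (Nat.shiftRight leaf519 sh) (Nat.ble 519 i)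
noncomputable def s515_520 (i sh : Nat) : Nat := Bool.rec (s515_518 i sh) (s518_520 i sh) (Nat.ble 518 i)
noncomputable def s521_523 (i sh : Nat) : Nat := Bool.rec (Nat.shiftRight leaf521 sh) (Nat.shiftRight leaf522 sh) (Nat.ble 522 i)
noncomputable def s520_523 (i sh : Nat) : Nat := Bool.rec (Nat.shiftRight leaf520 sh) (s521_523 i sh) (Nat.ble 521 i)
noncomputable def s515_523 (i sh : Nat) : Nat := Bool.rec (s515_520 i sh) (s520_523 i sh) (Nat.ble 520 i)
noncomputable def s523_525 (i sh : Nat) : Nat := Bool.rec (Nat.shiftRight leaf523 sh) (Nat.shiftRight leaf524 sh) (Nat.ble 524 i)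
noncomputable def s526_528 (i sh : Nat) : Nat := Bool.rec (Nat.shiftRight leaf526 sh) (Nat.shiftRight leaf527 sh) (Nat.ble 527 i)
noncomputable def s525_528 (i sh : Nat) : Nat := Bool.rec (Nat.shiftRight leaf525 sh) (s526_528 i sh) (Nat.ble 526 i)
noncomputable def s523_528 (i sh : Nat) : Nat := Bool.rec (s523_525 i sh) (s525_528 i sh) (Nat.ble 525 i)
noncomputable def s523_529 (i sh : Nat) : Nat := Bool.rec (s523_528 i sh) (Nat.shiftRight leaf528 sh) (Nat.ble 528 i)
noncomputable def s515_529 (i sh : Nat) : Nat := Bool.rec (s515_523 i sh) (s523_529 i sh) (Nat.ble 523 i)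
noncomputable def s529_531 (i sh : Nat) : Nat := Bool.rec (Nat.shiftRight leaf529 sh) (Nat.shiftRight leaf530 sh) (Nat.ble 530 i)
noncomputable def s531_533 (i sh : Nat) : Nat := Bool.rec (Nat.shiftRight leaf531 sh) (Nat.shiftRight leaf532 sh) (Nat.ble 532 i)
noncomputable def s531_534 (i sh : Nat) : Nat := Bool.rec (s531_533 i sh) (Nat.shiftRight leaf533 sh) (Nat.ble 533 i)
noncomputable def s529_534 (i sh : Nat) : Nat := Bool.rec (s529_531 i sh) (s531_534 i sh) (Nat.ble 531 i)
noncomputable def s529_535 (i sh : Nat) : Nat := Bool.rec (s529_534 i sh) (Nat.shiftRight leaf534 sh) (Nat.ble 534 i)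
noncomputable def s535_537 (i sh : Nat) : Nat := Bool.rec (Nat.shiftRight leaf535 sh) (Nat.shiftRight leaf536 sh) (Nat.ble 536 i)
noncomputable def s537_539 (i sh : Nat) : Nat := Bool.rec (Nat.shiftRight leaf537 sh) (Nat.shiftRight leaf538 sh) (Nat.ble 538 i)
noncomputable def s535_539 (i sh : Nat) : Nat := Bool.rec (s535_537 i sh) (s537_539 i sh) (Nat.ble 537 i)
noncomputable def s539_541 (i sh : Nat) : Nat := Bool.rec (Nat.shiftRight leaf539 sh) (Nat.shiftRight leaf540 sh) (Nat.ble 540 i)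
noncomputable def s539_542 (i sh : Nat) : Nat := Bool.rec (s539_541 i sh) (Nat.shiftRight leaf541 sh) (Nat.ble 541 i)
noncomputable def s543_545 (i sh : Nat) : Nat := Bool.rec (Nat.shiftRight leaf543 sh) (Nat.shiftRight leaf544 sh) (Nat.ble 544 i)
noncomputable def s542_545 (i sh : Nat) : Nat := Bool.rec (Nat.shiftRight leaf542 sh) (s543_545 i sh) (Nat.ble 543 i)
noncomputable def s539_545 (i sh : Nat) : Nat := Bool.rec (s539_542 i sh) (s542_545 i sh) (Nat.ble 542 i)
noncomputable def s535_545 (i sh : Nat) : Nat := Bool.rec (s535_539 i sh) (s539_545 i sh) (Nat.ble 539 i)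
noncomputable def s529_545 (i sh : Nat) : Nat := Bool.rec (s529_535 i sh) (s535_545 i sh) (Nat.ble 535 i)
noncomputable def s515_545 (i sh : Nat) : Nat := Bool.rec (s515_529 i sh) (s529_545 i sh) (Nat.ble 529 i)
noncomputable def s490_545 (i sh : Nat) : Nat := Bool.rec (s490_515 i sh) (s515_545 i sh) (Nat.ble 515 i)
noncomputable def s448_545 (i sh : Nat) : Nat := Bool.rec (s448_490 i sh) (s490_545 i sh) (Nat.ble 490 i)
noncomputable def s350_545 (i sh : Nat) : Nat := Bool.rec (s350_448 i sh) (s448_545 i sh) (Nat.ble 448 i)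
noncomputable def s204_545 (i sh : Nat) : Nat := Bool.rec (s204_350 i sh) (s350_545 i sh) (Nat.ble 350 i)
noncomputable def s21_545 (i sh : Nat) : Nat := Bool.rec (s21_204 i sh) (s204_545 i sh) (Nat.ble 204 i)
noncomputable def s0_545 (i sh : Nat) : Nat := Bool.rec (s0_21 i sh) (s21_545 i sh) (Nat.ble 21 i)

noncomputable def sel (i sh : Nat) : Nat :=
  s0_545 i sh

noncomputable def cls (id : Nat) : Nat :=
  Nat.land (sel (Nat.shiftRight id 6) (Nat.mul (Nat.land id 63) 1088)) 3316158518186977171087283760642741158699936149735704467159471849921418683482035763477878926564345847729145083728966646356210626353328840324989147544629059746554141479347263264595425816446455256534872353644097455203319930608430165174159005378955830171087831965898486080345430665055936553487340789901656166618033483630075818541055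

def sp : Spec := ⟨24, 7, 17, true, 17, true, 14, 16, 0, 0, 512⟩

end Vale.Agent.P048.Sat.Z7x17
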